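import Vale.Agent.P343.Loc

/-!
The doubling argument: a monoid of behaviours mapping onto the relations on a large set
needs many states.
-/

open Finset
open scoped Classical

namespace Vale.Agent.P343

variable {Q T X : Type} [Monoid T]

theorem exists_idem_pow [Finite T] (x : T) : ∃ n, x ^ (n + 1) * x ^ (n + 1) = x ^ (n + 1) := by
  obtain ⟨a, b, h1, h2⟩ : ∃ a b, a < b ∧ x ^ a = x ^ b := by
    obtain ⟨a, b, h1, h2⟩ := Finite.exists_ne_map_eq_of_infinite fun n : ℕ => x ^ n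
    rcases lt_or_gt_of_ne h1 with h | h
    exacts [⟨a, b, h, h2⟩, ⟨b, a, h, h2.symm⟩]
  obtain ⟨c, rfl⟩ := Nat.exists_eq_add_of_lt h1
  have k : ∀ j, x ^ (a + j * (c + 1)) = x ^ a := fun j => by
    induction j with
    | zero => simp
    | succ j ih =>
      rw [show a + (j + 1) * (c + 1) = a + c + 1 + j * (c + 1) by ring, pow_add, ← h2,
        ← pow_add, ih]
  refine ⟨a * c + a + c, ?_⟩
  have e1 : a * c + a + c + 1 = a + (a * c + c + 1) := by ring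
  rw [← pow_add, show a * c + a + c + 1 + (a * c + a + c + 1) =
    a + (a + 1) * (c + 1) + (a * c + c + 1) by ring, pow_add, k, ← pow_add, e1]

theorem isU_of_pow {e w : T} (he : e * e = e) (hw : Loc e w) {k : ℕ} (h : w ^ (k + 1) = e) :
    IsU e w (w ^ (2 * k + 1)) := by
  have : w ^ (2 * k + 1 + 1) = e := by
    rw [show 2 * k + 1 + 1 = k + 1 + (k + 1) by ring, pow_add, h, he]
  exact ⟨hw, hw.pow _, by rw [← pow_succ', this], by rw [← pow_succ, this]⟩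

theorem exists_min_idem [Finite T] (K : T → Prop) (hK : ∀ x y, K x → K y → K (x * y))
    (h0 : ∃ x, K x) : ∃ e, K e ∧ e * e = e ∧ ∀ w, Loc e w → K w → ∃ k, w ^ (k + 1) = e := by
  have hp : ∀ x, K x → ∀ n, K (x ^ (n + 1)) := fun x hx n => by
    induction n with
    | zero => simpa using hx
    | succ n ih => rw [pow_succ]; exact hK _ _ ih hx
  obtain ⟨x, hx⟩ := h0
  obtain ⟨n, hn⟩ := exists_idem_pow x
  obtain ⟨e, ⟨h1, h2⟩, h3⟩ := Set.exists_min_image {e | K e ∧ e * e = e}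
    (fun e => {w | Loc e w}.ncard) (Set.toFinite _) ⟨_, hp x hx n, hn⟩
  refine ⟨e, h1, h2, fun w hw kw => ?_⟩
  obtain ⟨k, hk⟩ := exists_idem_pow w
  refine ⟨k, ?_⟩
  have h4 := hw.pow k
  have h5 : {y | Loc (w ^ (k + 1)) y} = {y | Loc e y} :=
    Set.eq_of_subset_of_ncard_le (fun y hy => ⟨by rw [← hy.1, ← mul_assoc, h4.1],
      by rw [← hy.2, mul_assoc, h4.2]⟩) (h3 _ ⟨hp w kw k, hk⟩)
  have h6 : e ∈ {y | Loc (w ^ (k + 1)) y} := h5 ▸ ⟨h2, h2⟩
  exact h4.2.symm.trans h6.1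

noncomputable def dist (β : T → Beh Q) (x y : T) : ℕ := (pairs (β x) (β y)).ncard

def H (β : T → Beh Q) (ψ : T → X → X → Prop) (k D : ℕ) : Prop :=
  ∀ (S : Finset X) (u v : X) (x y : T), k ≤ S.card → u ∈ S → v ∈ S → u ≠ v →
    (∀ a c, ψ x a c ↔ a ∈ S ∧ c = a ∨ a = u ∧ c = v) → (∀ a c, ψ y a c ↔ a ∈ S ∧ c = a) →
    D ≤ dist β x y

variable {β : T → Beh Q} {ψ : T → X → X → Prop}
  (hm : ∀ b x y, β (mul b x y) = glue b (β x) (β y))
  (hψ : ∀ x y a c, ψ (x * y) a c ↔ ∃ b, ψ x a b ∧ ψ y b c)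
  (hs : ∀ R, ∃ x, ψ x = R)

include hm in
theorem dist_mul [Finite Q] (b : Bool) (x y g : T) :
    dist β (mul b x g) (mul b y g) ≤ dist β x y := by
  unfold dist
  rw [hm, hm]
  exact pairs_glue _ _ _ _

include hm in
theorem dist_mul2 [Finite Q] (a x y b : T) : dist β (a * x * b) (a * y * b) ≤ dist β x y :=
  (dist_mul hm false (a * x) (a * y) b).trans (dist_mul hm true x y a)

include hm hψ hs in
theorem step [Fintype Q] [Finite T] {Y : Type} [Fintype Y] (τ0 : Equiv.Perm Y) (P : Finset ℕ)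
    (c0 : P → Y) (hc : ∀ (p q : P) (n : ℕ), (τ0 ^ n) (c0 p) = c0 q → (p : ℕ) ∣ n)
    (hP : ∀ p ∈ P, p.Prime) {L : ℕ}
    (hL : ∀ m, 0 < m → m ≤ 2 * Fintype.card Q → (P.filter (· ∣ m)).card ≤ L)
    (ht : 6 * L < P.card) {k k' D : ℕ} (hk : Fintype.card Y + 2 ≤ k')
    (hk' : k + 2 * P.card + 1 ≤ k') (h : H β ψ k D) : H β ψ k' (2 * D) := by
  intro S u v x y hS hu hv huv hx hy
  have hv1 : v ∈ S.erase u := mem_erase.2 ⟨huv.symm, hv⟩
  have c1 : (S.erase u).card + 1 = S.card := card_erase_add_one hu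
  have c2 := card_erase_add_one hv1
  have hS1 : ∀ a, a ∈ S.erase u ↔ a ≠ u ∧ a ∈ S := fun a => mem_erase
  generalize S.erase u = S1 at *
  obtain ⟨ι, hι⟩ := Function.Embedding.exists_of_card_le_finset (α := Y) (s := S1.erase v)
    (by omega)
  replace hι : ∀ a, ι a ≠ v ∧ ι a ∈ S1 := fun a => mem_erase.1 (hι ⟨a, rfl⟩)
  let φ := Equiv.Perm.viaEmbeddingHom ι
  have φ1 : ∀ π a, φ π (ι a) = ι (π a) := fun π a => Equiv.Perm.viaEmbedding_apply π ι a
  have φ0 : ∀ π a, a ∉ Set.range ι → φ π a = a := fun π a =>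
    Equiv.Perm.viaEmbedding_apply_of_notMem π ι a
  have φ2 : ∀ π, φ π v = v := fun π => φ0 π v fun ⟨a, h⟩ => (hι a).1 h
  have φ3 : ∀ π, ∀ a ∈ S1, φ π a ∈ S1 := fun π a ha => by
    by_cases h : a ∈ Set.range ι
    · obtain ⟨b, rfl⟩ := h
      rw [φ1]
      exact (hι _).2
    · rwa [φ0 π a h]
  let I : Finset X := univ.image fun p => ι (c0 p)
  have I1 : ∀ a ∈ I, a ≠ v ∧ a ∈ S1 := fun a ha => by
    obtain ⟨p, _, rfl⟩ := mem_image.1 ha
    exact hι _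
  have I2 : I.card ≤ P.card := card_image_le.trans (by simp)
  obtain ⟨t, ht1⟩ := hs fun a c => a ∈ S1 ∧ c = a
  obtain ⟨s, hs1⟩ := hs fun a c => a ∈ S1 ∧ c = a ∨ a ∈ I ∧ c = u
  obtain ⟨g0, hg0⟩ := hs fun a c => a ∈ S1 ∧ c = φ τ0 a
  obtain ⟨e, he, ee, hu⟩ := exists_min_idem (fun x => ∀ a c, ψ x a c ↔ a ∈ S1 ∧ c = a)
    (fun x y hx hy a c => by simp only [hψ, hx, hy]; grind) ⟨t, by simp [ht1]⟩
  have lc : ∀ w, Loc e (e * w * e) := fun w =>
    ⟨by rw [← mul_assoc, ← mul_assoc, ee], by rw [mul_assoc, ee]⟩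
  have hy1 : ∀ a c, ψ (e * (s * y * t) * e) a c ↔ a ∈ S1 ∧ c = a := fun a c => by
    simp only [hψ, he, hs1, ht1, hy]
    grind
  have hx1 : ∀ a c, ψ (e * (s * x * t) * e) a c ↔ a ∈ S1 ∧ c = a ∨ a ∈ I ∧ c = v := fun a c => by
    simp only [hψ, he, hs1, ht1, hx]
    grind
  obtain ⟨k1, hk1⟩ := hu _ (lc _) hy1
  have U1 := isU_of_pow ee (lc _) hk1
  have pw : ∀ w, (∀ a c, ψ w a c ↔ a ∈ S1 ∧ c = a) → ∀ n a c,
      ψ (w ^ (n + 1)) a c ↔ a ∈ S1 ∧ c = a := fun w hw n => by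
    induction n with
    | zero => simpa using hw
    | succ n ih =>
      intro a c
      rw [pow_succ]
      simp only [hψ, ih, hw]
      grind
  have hz := pw _ hy1 (2 * k1)
  generalize (e * (s * y * t) * e) ^ (2 * k1 + 1) = z at U1 hz
  have d1 : dist β (e * (s * x * t) * e * z) e ≤ dist β x y := by
    have h1 := (dist_mul hm false _ _ z).trans
      ((dist_mul2 hm e _ _ e).trans (dist_mul2 hm s x y t))
    simp only [mul, cond_false] at h1
    rwa [U1.2.2.1] at h1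
  have hγ : ∀ a c, ψ (e * (s * x * t) * e * z) a c ↔ a ∈ S1 ∧ c = a ∨ a ∈ I ∧ c = v := by
    intro a c
    rw [hψ]
    simp only [hx1, hz]
    grind
  have lγ := (lc (s * x * t)).mul U1.2.1
  generalize e * (s * x * t) * e * z = γ at d1 hγ lγ
  have gp : ∀ n a c, ψ ((e * g0 * e) ^ (n + 1)) a c ↔ a ∈ S1 ∧ c = φ (τ0 ^ (n + 1)) a := by
    have g1 : ∀ a c, ψ (e * g0 * e) a c ↔ a ∈ S1 ∧ c = φ τ0 a := fun a c => by
      simp only [hψ, he, hg0]
      grind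
    intro n
    induction n with
    | zero => simpa using g1
    | succ n ih =>
      intro a c
      rw [pow_succ, hψ, pow_succ' τ0 (n + 1), map_mul, Equiv.Perm.mul_apply]
      simp only [ih, g1]
      grind
  have lg := lc g0
  generalize e * g0 * e = g at gp lg
  obtain ⟨M, hM⟩ := Nat.exists_eq_succ_of_ne_zero (orderOf_pos τ0).ne'
  obtain ⟨k2, hk2⟩ := hu _ (lg.pow M) fun a c => by
    rw [gp, ← Nat.succ_eq_add_one, ← hM, pow_orderOf_eq_one]
    simp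
  rw [← pow_mul, show (M + 1) * (k2 + 1) = M * k2 + M + k2 + 1 by ring] at hk2
  have U2 := isU_of_pow ee lg hk2
  generalize M * k2 + M + k2 = k3 at hk2 U2
  let n : ℕ → ℕ := fun p => ordCompl[p] (2 * Fintype.card Q).factorial
  have n0 : ∀ p, n p ≠ 0 := fun p => (Nat.ordCompl_pos p (Nat.factorial_ne_zero _)).ne'
  have key := conj_sum hm U2 lγ P n L (fun j _ => n0 j) fun m h1 h2 =>
    (card_le_card fun j hj => by
      rw [mem_filter] at hj ⊢
      exact ⟨hj.1, by_contra fun h3 => hj.2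
        (Nat.dvd_ordCompl_of_dvd_not_dvd (Nat.dvd_factorial h1 h2) h3)⟩).trans (hL m h1 h2)
  have low : ∀ j ∈ P, D ≤ dist β γ (g ^ n j * γ * (g ^ (2 * k3 + 1)) ^ n j) := fun j hj => by
    have h1 : ¬j ∣ n j := Nat.not_dvd_ordCompl (hP j hj) (Nat.factorial_ne_zero _)
    obtain ⟨m, hm1⟩ := Nat.exists_eq_succ_of_ne_zero (n0 j)
    rw [hm1, Nat.succ_eq_add_one] at h1 ⊢
    have U3 := U2.pow m
    have e1 : (g ^ (2 * k3 + 1)) ^ (m + 1) = g ^ (2 * k3 * m + 2 * k3 + m + 1) := by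
      rw [← pow_mul]
      congr 1
      ring
    rw [e1] at U3 ⊢
    have g1 := gp m
    have g2 := gp (2 * k3 * m + 2 * k3 + m)
    have u1 := φ2 (τ0 ^ (2 * k3 * m + 2 * k3 + m + 1))
    have u2 := φ2 (τ0 ^ (m + 1))
    have u3 := φ3 (τ0 ^ (m + 1))
    have u4 : φ (τ0 ^ (m + 1)) (ι (c0 ⟨j, hj⟩)) ∉ I := fun h => by
      obtain ⟨p, _, h2⟩ := mem_image.1 h
      rw [φ1] at h2
      exact h1 (hc ⟨j, hj⟩ p _ (ι.injective h2.symm))
    have u5 : ι (c0 ⟨j, hj⟩) ∈ I := mem_image.2 ⟨_, mem_univ _, rfl⟩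
    generalize φ (τ0 ^ (2 * k3 * m + 2 * k3 + m + 1)) = π' at *
    generalize φ (τ0 ^ (m + 1)) = π at *
    generalize ι (c0 ⟨j, hj⟩) = u' at *
    generalize g ^ (2 * k3 * m + 2 * k3 + m + 1) = b' at *
    generalize g ^ (m + 1) = b at *
    have u6 : ∀ a ∈ S1, π' (π a) = a := fun a ha => by
      have := (hψ b b' a (π' (π a))).2 ⟨π a, (g1 _ _).2 ⟨ha, rfl⟩, (g2 _ _).2 ⟨u3 a ha, rfl⟩⟩
      rw [U3.2.2.1] at this
      exact ((he _ _).1 this).2
    let S2 := S1 \ (I.erase u' ∪ I.image π.symm)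
    have m2 : ∀ a, a ∈ S2 ↔ a ∈ S1 ∧ (a = u' ∨ a ∉ I) ∧ π a ∉ I := fun a => by
      simp only [S2, mem_sdiff, mem_union, mem_erase, mem_image, Equiv.symm_apply_eq]
      grind
    have c3 : S1.card ≤ S2.card + 2 * P.card := by
      have h1 : S1.card ≤ S2.card + _ := card_le_card_sdiff_add_card
      have h2 := card_union_le (I.erase u') (I.image π.symm)
      have h3 : (I.erase u').card ≤ I.card := card_erase_le
      have h4 : (I.image π.symm).card ≤ I.card := card_image_le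
      omega
    clear_value S2 I
    obtain ⟨r, hr⟩ := hs fun a c => a ∈ S2 ∧ c = a
    refine (h S2 u' v _ _ (by omega) (by grind) (by grind) (by grind) (fun a c => ?_)
      fun a c => ?_).trans (dist_mul2 hm r _ _ r)
    · simp only [hψ, hr, hγ]
      grind
    · simp only [hψ, hr, hγ, g1, g2]
      constructor
      · rintro ⟨_, ⟨_, ⟨a1, rfl⟩, _, ⟨_, ⟨a2, rfl⟩, a3⟩, a4, rfl⟩, a5, rfl⟩
        rcases a3 with ⟨_, rfl⟩ | ⟨a3, rfl⟩
        · exact ⟨a1, u6 _ a2⟩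
        · exact absurd a3 ((m2 _).1 a1).2.2
      · rintro ⟨a1, rfl⟩
        have a2 := ((m2 _).1 a1).1
        exact ⟨c, ⟨c, ⟨a1, rfl⟩, π c, ⟨π c, ⟨a2, rfl⟩, Or.inl ⟨u3 _ a2, rfl⟩⟩, u3 _ a2,
          (u6 _ a2).symm⟩, a1, rfl⟩
  have h1 := card_nsmul_le_sum _ _ _ low
  have h2 : P.card * D ≤ 3 * (L * dist β x y) :=
    h1.trans (key.trans (Nat.mul_le_mul_left _ (Nat.mul_le_mul_left _ d1)))
  by_contra h3
  nlinarith

end Vale.Agent.P343
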