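import Mathlib

/-!
Behaviours of tape segments, their gluing, and the outcome-pair distance.
-/

open scoped Classical

namespace Vale.Agent.P343

variable {Q : Type}

/-- An outcome: exit on a side in a state, or acceptance (`none`). -/
abbrev Out (Q : Type) := Option (Bool × Q)

/-- A behaviour maps an entry (side, state) to an outcome, or to `none` if there is none. -/
abbrev Beh (Q : Type) := Bool × Q → Option (Out Q)

inductive Ev (F : Bool → Beh Q) : Bool → Bool × Q → Out Q → Prop
  | fin {b i o} : F b i = some o → (∀ q, o ≠ some (!b, q)) → Ev F b i o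
  | cross {b i q o} : F b i = some (some (!b, q)) → Ev F (!b) (b, q) o → Ev F b i o

theorem Ev.unique {F : Bool → Beh Q} {b i o o'} (h : Ev F b i o) (h' : Ev F b i o') : o = o' := by
  induction h with
  | fin h1 h2 =>
    cases h' with
    | fin h3 _ => exact Option.some.inj (h1.symm.trans h3)
    | cross h3 _ => exact absurd (Option.some.inj (h1.symm.trans h3)) (h2 _)
  | cross h1 _ ih =>
    cases h' with
    | fin h3 h4 => exact absurd (Option.some.inj (h3.symm.trans h1)) (h4 _)
    | cross h3 h4 =>
      obtain ⟨⟩ := h1.symm.trans h3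
      exact ih h4

noncomputable def ev (F : Bool → Beh Q) (b : Bool) : Beh Q := fun i =>
  if h : ∃ o, Ev F b i o then some h.choose else none

theorem ev_eq {F : Bool → Beh Q} {b i o} : ev F b i = some o ↔ Ev F b i o := by
  unfold ev
  split_ifs with h
  · exact ⟨fun h1 => Option.some.inj h1 ▸ h.choose_spec,
      fun h1 => congrArg some (h.choose_spec.unique h1)⟩
  · exact ⟨nofun, fun h1 => absurd ⟨_, h1⟩ h⟩

theorem ev_cross {F : Bool → Beh Q} {b i q} (h : F b i = some (some (!b, q))) :
    ev F b i = ev F (!b) (b, q) := by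
  refine Option.ext fun o => ?_
  simp only [ev_eq]
  refine ⟨fun h1 => ?_, .cross h⟩
  cases h1 with
  | fin h3 h4 => exact absurd (Option.some.inj (h3.symm.trans h)) (h4 _)
  | cross h3 h4 =>
    obtain ⟨⟩ := h.symm.trans h3
    exact h4

theorem ev_fin {F : Bool → Beh Q} {b i} (h : ∀ q, F b i ≠ some (some (!b, q))) :
    ev F b i = F b i := by
  refine Option.ext fun o => ?_
  simp only [ev_eq]
  refine ⟨fun h1 => ?_, fun h1 => .fin h1 fun q h2 => h q (h2 ▸ h1)⟩
  cases h1 with
  | fin h3 _ => exact h3
  | cross h3 _ => exact absurd h3 (h _)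

theorem ev_congr {F : Bool → Beh Q} {b i j} (h : F b i = F b j) : ev F b i = ev F b j := by
  by_cases h1 : ∃ q, F b i = some (some (!b, q))
  · obtain ⟨q, h1⟩ := h1
    rw [ev_cross h1, ev_cross (h.symm.trans h1)]
  · push Not at h1
    rw [ev_fin h1, ev_fin (h ▸ h1), h]

/-- `f` at position `b`, `g` at the other position. -/
def two (b : Bool) (f g : Beh Q) : Bool → Beh Q := fun c => if c = b then f else g

@[simp] theorem two_self (b : Bool) (f g : Beh Q) : two b f g b = f := if_pos rfl

@[simp] theorem two_not (b : Bool) (f g : Beh Q) : two b f g (!b) = g := if_neg (by simp)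

theorem two_swap (b : Bool) (f g : Beh Q) : two (!b) g f = two b f g := by
  ext1 c
  cases b <;> cases c <;> rfl

def pairs (f f' : Beh Q) : Set (Option (Out Q) × Option (Out Q)) :=
  {p | p.1 ≠ p.2 ∧ ∃ i, p = (f i, f' i)}

noncomputable def glue (b : Bool) (f g : Beh Q) : Beh Q := fun i => ev (two b f g) i.1 i

theorem first_diff {b : Bool} {f f' g : Beh Q} {c i o} (h : Ev (two b f g) c i o) :
    ev (two b f g) c i = ev (two b f' g) c i ∨ ∃ j, f j ≠ f' j ∧
      ev (two b f g) c i = ev (two b f g) b j ∧ ev (two b f' g) c i = ev (two b f' g) b j := by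
  have k : ∀ c i, two b f g c i = two b f' g c i ∨ (c = b ∧ f i ≠ f' i) := fun c i => by
    unfold two
    split_ifs with h
    · exact (em _).imp_right fun h1 => ⟨h, h1⟩
    · exact Or.inl rfl
  induction h with
  | @fin c i o h1 h2 =>
    rcases k c i with h3 | ⟨rfl, h3⟩
    · exact Or.inl ((ev_eq.2 (.fin h1 h2)).trans (ev_eq.2 (.fin (h3 ▸ h1) h2)).symm)
    · exact Or.inr ⟨i, h3, rfl, rfl⟩
  | @cross c i q o h1 _ ih =>
    rcases k c i with h3 | ⟨rfl, h3⟩
    · rwa [ev_cross h1, ev_cross (h3.symm.trans h1)]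
    · exact Or.inr ⟨i, h3, rfl, rfl⟩

theorem pairs_glue [Finite Q] (b : Bool) (f f' g : Beh Q) :
    (pairs (glue b f g) (glue b f' g)).ncard ≤ (pairs f f').ncard := by
  let Φ : Beh Q → Option (Out Q) → Option (Out Q) := fun f a =>
    if h : ∃ j, f j = a then ev (two b f g) b h.choose else none
  have hΦ : ∀ f j, Φ f (f j) = ev (two b f g) b j := fun f j => by
    have h : ∃ j', f j' = f j := ⟨j, rfl⟩
    simp only [Φ, dif_pos h]
    exact ev_congr (by simpa using h.choose_spec)
  refine (Set.ncard_le_ncard ?_).trans (Set.ncard_image_le (f := Prod.map (Φ f) (Φ f')))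
  rintro _ ⟨h1, i, rfl⟩
  have : ∃ j, f j ≠ f' j ∧ ev (two b f g) i.1 i = ev (two b f g) b j ∧
      ev (two b f' g) i.1 i = ev (two b f' g) b j := by
    cases h2 : ev (two b f g) i.1 i with
    | some o => exact h2 ▸ (first_diff (ev_eq.1 h2)).resolve_left h1
    | none =>
      cases h3 : ev (two b f' g) i.1 i with
      | some o =>
        obtain ⟨j, a1, a2, a3⟩ := (first_diff (f' := f) (ev_eq.1 h3)).resolve_left (Ne.symm h1)
        exact ⟨j, a1.symm, h2 ▸ a3, h3 ▸ a2⟩
      | none => exact absurd (h2.trans h3.symm) h1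
  obtain ⟨j, a1, a2, a3⟩ := this
  exact ⟨(f j, f' j), ⟨a1, j, rfl⟩, by simp [hΦ, glue, a2, a3]⟩

theorem Ev.last {F : Bool → Beh Q} {c i s q} (h : Ev F c i (some (s, q))) :
    ∃ j, F s j = some (some (s, q)) ∧ (j.1 = !s ∨ (c = s ∧ j = i)) := by
  generalize ho : some (s, q) = o at h
  induction h with
  | @fin c i o h1 h2 =>
    subst ho
    obtain rfl : s = c := by
      by_contra h
      exact h2 q (by rw [Bool.eq_not.2 h])
    exact ⟨i, h1, Or.inr ⟨rfl, rfl⟩⟩
  | @cross c i q' o h1 _ ih =>
    obtain ⟨j, a1, a2⟩ := ih ho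
    refine ⟨j, a1, Or.inl (a2.elim id ?_)⟩
    rintro ⟨rfl, rfl⟩
    simp

/-- Relabel the exits on side `b`. -/
def relabel (b : Bool) (φ : Q → Q) : Out Q → Out Q :=
  Option.map fun o => if o.1 = b then (b, φ o.2) else o

theorem sim {b : Bool} {e g w : Beh Q} {φ : Q → Q}
    (h : ∀ q, g (!b, q) = (e (!b, q)).map (relabel b φ)) {c i} (hc : c = !b ∨ i.1 = !b) :
    ev (two b g w) c i = (ev (two b e w) c i).map (relabel b φ) := by
  have k : ∀ c i, c = !b ∨ i.1 = !b → ∀ q, two b g w c i = some (some (!c, q)) ↔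
      two b e w c i = some (some (!c, q)) := by
    rintro c ⟨s, r⟩ hc q
    by_cases h1 : c = b
    · subst h1
      obtain rfl : s = !c := by simpa using hc
      simp only [two_self, h]
      rcases e (!c, r) with _ | _ | ⟨s, r'⟩
      · simp
      · simp [relabel]
      · cases c <;> cases s <;> simp [relabel]
    · simp [two, h1]
  have k2 : ∀ c i, c = !b ∨ i.1 = !b → (∀ q, two b e w c i ≠ some (some (!c, q))) →
      two b g w c i = (two b e w c i).map (relabel b φ) := by
    rintro c ⟨s, r⟩ hc h2
    by_cases h1 : c = b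
    · subst h1
      obtain rfl : s = !c := by simpa using hc
      simp only [two_self, h]
    · obtain rfl := Bool.eq_not.2 h1
      simp only [two_not, Bool.not_not] at h2 ⊢
      revert h2
      rcases w (s, r) with _ | _ | ⟨s, r'⟩
      · simp
      · simp [relabel]
      · cases b <;> cases s <;> simp [relabel]
  have nx : ∀ (c : Bool) (q : Q), (!c) = !b ∨ (c, q).1 = !b := fun c q => by
    cases b <;> cases c <;> simp
  have fw : ∀ c i o, Ev (two b e w) c i o → c = !b ∨ i.1 = !b →
      ev (two b g w) c i = (ev (two b e w) c i).map (relabel b φ) := by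
    intro c i o h1
    induction h1 with
    | @fin c i o h1 h2 =>
      intro hc
      have h3 : ∀ q, two b e w c i ≠ some (some (!c, q)) := fun q h => h2 q (by simpa [h1] using h)
      rw [ev_fin h3, ev_fin fun q h => h3 q ((k c i hc q).1 h), k2 c i hc h3]
    | @cross c i q o h1 _ ih =>
      intro hc
      rw [ev_cross h1, ev_cross ((k c i hc q).2 h1), ih (nx c q)]
  have bw : ∀ c i o, Ev (two b g w) c i o → c = !b ∨ i.1 = !b →
      ev (two b g w) c i = (ev (two b e w) c i).map (relabel b φ) := by
    intro c i o h1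
    induction h1 with
    | @fin c i o h1 h2 =>
      intro hc
      have h3 : ∀ q, two b g w c i ≠ some (some (!c, q)) := fun q h => h2 q (by simpa [h1] using h)
      have h4 : ∀ q, two b e w c i ≠ some (some (!c, q)) := fun q h => h3 q ((k c i hc q).2 h)
      rw [ev_fin h3, ev_fin h4, k2 c i hc h4]
    | @cross c i q o h1 _ ih =>
      intro hc
      rw [ev_cross h1, ev_cross ((k c i hc q).1 h1), ih (nx c q)]
  cases h2 : ev (two b e w) c i with
  | some o => exact h2 ▸ fw c i o (ev_eq.1 h2) hc
  | none =>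
    cases h3 : ev (two b g w) c i with
    | some o => exact h3 ▸ h2 ▸ bw c i o (ev_eq.1 h3) hc
    | none => rfl

end Vale.Agent.P343
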