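import Vale.Agent.P343.Alg

/-!
Iterating the doubling step.
-/

open Finset
open scoped Classical

namespace Vale.Agent.P343

theorem exists_primes (t z : ℕ) (hz : 0 < z) :
    ∃ P : Finset ℕ, P.card = t ∧ ∀ p ∈ P, p.Prime ∧ z < p ∧ p ≤ 2 ^ t * z := by
  induction t with
  | zero => exact ⟨∅, rfl, by simp⟩
  | succ t ih =>
    obtain ⟨P, h1, h2⟩ := ih
    obtain ⟨q, a1, a2, a3⟩ := Nat.exists_prime_lt_and_le_two_mul (2 ^ t * z) (by positivity)
    have h3 : z ≤ 2 ^ t * z := Nat.le_mul_of_pos_left _ (by positivity)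
    have h4 : 2 ^ (t + 1) * z = 2 * (2 ^ t * z) := by ring
    refine ⟨insert q P, ?_, fun p hp => ?_⟩
    · rw [card_insert_of_notMem fun h => by have := h2 q h; omega, h1]
    · rcases mem_insert.1 hp with rfl | hp
      · exact ⟨a1, by omega, by omega⟩
      · have := h2 p hp
        exact ⟨this.1, this.2.1, by omega⟩

theorem alg_bound (L : ℕ) : ∃ C, ∀ z, 0 < z → ∀ (Q T X : Type) [Monoid T] [Fintype Q] [Finite T]
    [Fintype X] (β : T → Beh Q) (ψ : T → X → X → Prop),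
    (∀ b x y, β (mul b x y) = glue b (β x) (β y)) →
    (∀ x y a c, ψ (x * y) a c ↔ ∃ b, ψ x a b ∧ ψ y b c) → (∀ R, ∃ x, ψ x = R) →
    (∀ x y, β x = β y → ψ x = ψ y) → C * z ≤ Fintype.card X → 2 * Fintype.card Q < z ^ (L + 1) →
    2 ^ z ≤ (2 * Fintype.card Q + 2) ^ 2 := by
  refine ⟨(6 * L + 1) * 2 ^ (6 * L + 1) + 2 + (2 * (6 * L + 1) + 1), ?_⟩
  intro z hz Q T X _ _ _ _ β ψ hm hψ hs hne hX hQ
  obtain ⟨P, hP1, hP⟩ := exists_primes (6 * L + 1) z hz
  haveI : ∀ p : P, NeZero (p : ℕ) := fun p => ⟨(hP p p.2).1.ne_zero⟩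
  let Y := Σ p : P, ZMod p
  let τ0 : Equiv.Perm Y := Equiv.sigmaCongrRight fun p => Equiv.addRight 1
  have hτ : ∀ (p : P) (n : ℕ), (τ0 ^ n) ⟨p, 0⟩ = ⟨p, n⟩ := fun p n => by
    induction n with
    | zero => simp
    | succ n ih =>
      rw [pow_succ', Equiv.Perm.mul_apply, ih, Nat.cast_succ]
      rfl
  have hY : Fintype.card Y ≤ (6 * L + 1) * 2 ^ (6 * L + 1) * z := by
    rw [Fintype.card_sigma, mul_assoc, ← hP1]
    refine (sum_le_card_nsmul _ _ (2 ^ P.card * z) fun p _ => ?_).trans (by simp)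
    rw [ZMod.card, hP1]
    exact (hP p p.2).2.2
  have hL : ∀ m, 0 < m → m ≤ 2 * Fintype.card Q → (P.filter (· ∣ m)).card ≤ L := fun m h1 h2 => by
    have h3 : ∏ p ∈ P.filter (· ∣ m), p ∣ m := Finset.prod_primes_dvd m
      (fun p hp => (hP p (mem_filter.1 hp).1).1.prime) fun p hp => (mem_filter.1 hp).2
    have h4 : z ^ (P.filter (· ∣ m)).card ≤ ∏ p ∈ P.filter (· ∣ m), p :=
      pow_card_le_prod _ _ _ fun p hp => (hP p (mem_filter.1 hp).1).2.1.le
    by_contra h5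
    have h6 : z ^ (L + 1) ≤ z ^ (P.filter (· ∣ m)).card := Nat.pow_le_pow_right hz (by omega)
    have := Nat.le_of_dvd h1 h3
    omega
  have key : ∀ m, H β ψ (Fintype.card Y + 2 + m * (2 * P.card + 1)) (2 ^ m) := fun m => by
    induction m with
    | zero =>
      intro S u v x y _ _ _ huv hx hy
      refine (Set.ncard_pos (Set.toFinite _)).2 (by_contra fun h => ?_)
      have h1 : β x = β y := funext fun i => by_contra fun h1 => h ⟨_, h1, i, rfl⟩
      have h2 := (hx u v).2 (Or.inr ⟨rfl, rfl⟩)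
      rw [hne x y h1, hy] at h2
      exact huv h2.2.symm
    | succ m ih =>
      rw [pow_succ']
      refine step hm hψ hs τ0 P (fun p => ⟨p, 0⟩) (fun p q n h => ?_) (fun p hp => (hP p hp).1) hL
        (by omega) (by omega) (le_of_eq (by ring)) ih
      rw [hτ] at h
      obtain ⟨rfl, h2⟩ := Sigma.mk.inj h
      exact (ZMod.natCast_eq_zero_iff _ _).1 (eq_of_heq h2)
  have h1 : Fintype.card Y + 2 + z * (2 * P.card + 1) ≤ Fintype.card X := by
    rw [hP1]
    nlinarith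
  obtain ⟨u, v, huv⟩ := Fintype.exists_pair_of_one_lt_card (α := X) (by omega)
  obtain ⟨x, hx⟩ := hs fun a c => a ∈ (univ : Finset X) ∧ c = a ∨ a = u ∧ c = v
  obtain ⟨y, hy⟩ := hs fun a c => a ∈ (univ : Finset X) ∧ c = a
  refine (key z univ u v x y h1 (mem_univ _) (mem_univ _) huv (by simp [hx])
    (by simp [hy])).trans ((Set.ncard_le_card _).trans (le_of_eq ?_))
  simp [sq, add_assoc]

end Vale.Agent.P343
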