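import Mathlib

/-!
Two-way nondeterministic finite automata.
-/

namespace Vale.Agent.P343

/-- Tape symbols: the two endmarkers and the letters. -/
inductive Sym (A : Type) where
  | left : Sym A
  | right : Sym A
  | letter : A → Sym A

/-- A two-way nondeterministic finite automaton with alphabet `A` and state set `Q`.
A move is `-1` (left), `0` (stay) or `1` (right); the head never moves beyond an endmarker. -/
structure TwoNFA (A Q : Type) where
  start : Q
  accept : Set Q
  trans : Q → Sym A → Set (Q × SignType)
  no_left : ∀ q q', (q', -1) ∉ trans q Sym.left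
  no_right : ∀ q q', (q', 1) ∉ trans q Sym.right

variable {A Q : Type}

/-- The tape holding `w` between the endmarkers. -/
def tape (w : List A) : List (Sym A) := Sym.left :: (w.map Sym.letter ++ [Sym.right])

/-- One step between configurations (state, head position). -/
def TwoNFA.Step (M : TwoNFA A Q) (w : List A) (c c' : Q × ℕ) : Prop :=
  ∃ s m, (tape w)[c.2]? = some s ∧ (c'.1, m) ∈ M.trans c.1 s ∧ (c'.2 : ℤ) = c.2 + (m : ℤ)

/-- Some finite computation from the left endmarker reaches an accepting state. -/
def TwoNFA.Accepts (M : TwoNFA A Q) (w : List A) : Prop :=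
  ∃ q ∈ M.accept, ∃ p, Relation.ReflTransGen (M.Step w) (M.start, 0) (q, p)

/-- At most one transition for each state and symbol. -/
def TwoNFA.Deterministic (M : TwoNFA A Q) : Prop := ∀ q s, (M.trans q s).Subsingleton

/-- The head never moves left. -/
def TwoNFA.OneWay (M : TwoNFA A Q) : Prop := ∀ q s q', (q', -1) ∉ M.trans q s

end Vale.Agent.P343
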