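import Vale.Agent.P343.Beh

/-!
The local monoid of an idempotent: its units permute the crossing outcomes.
-/

open Finset
open scoped Classical

namespace Vale.Agent.P343

variable {Q T : Type} [Monoid T]

/-- `x` at position `b`, `y` at the other position. -/
def mul (b : Bool) (x y : T) : T := cond b (y * x) (x * y)

def Loc (e w : T) : Prop := e * w = w ∧ w * e = w

theorem Loc.mul_eq {e w : T} (h : Loc e w) (b : Bool) : mul b e w = w := by
  cases b
  exacts [h.1, h.2]

theorem Loc.mul {e x y : T} (h : Loc e x) (h' : Loc e y) : Loc e (x * y) :=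
  ⟨by rw [← mul_assoc, h.1], by rw [mul_assoc, h'.2]⟩

theorem Loc.pow {e x : T} (h : Loc e x) (n : ℕ) : Loc e (x ^ (n + 1)) := by
  induction n with
  | zero => simpa using h
  | succ n ih => rw [pow_succ]; exact ih.mul h

def IsU (e g g' : T) : Prop := Loc e g ∧ Loc e g' ∧ g * g' = e ∧ g' * g = e

theorem IsU.symm {e g g' : T} (h : IsU e g g') : IsU e g' g := ⟨h.2.1, h.1, h.2.2.2, h.2.2.1⟩

theorem IsU.mul {e a a' b b' : T} (h : IsU e a a') (h' : IsU e b b') : IsU e (a * b) (b' * a') :=
  ⟨h.1.mul h'.1, h'.2.1.mul h.2.1,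
    by rw [mul_assoc, ← mul_assoc b, h'.2.2.1, h.2.1.1, h.2.2.1],
    by rw [mul_assoc, ← mul_assoc a', h.2.2.2, h'.1.1, h'.2.2.2]⟩

theorem IsU.pow {e g g' : T} (h : IsU e g g') (n : ℕ) : IsU e (g ^ (n + 1)) (g' ^ (n + 1)) := by
  induction n with
  | zero => simpa using h
  | succ n ih => rw [pow_succ, pow_succ' g']; exact ih.mul h

variable (β : T → Beh Q) (e : T)

def Str : Type := {o : Bool × Q // ∃ q, β e (!o.1, q) = some (some o)}

instance [Finite Q] : Finite (Str β e) := by unfold Str; infer_instance

variable {β e}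

noncomputable def rep (o : Str β e) : Bool × Q := (!o.1.1, o.2.choose)

theorem rep_spec (o : Str β e) : β e (rep o) = some (some o.1) := o.2.choose_spec

noncomputable def act (w : T) (o : Str β e) : Str β e :=
  if h : ∃ o' : Str β e, β w (rep o) = some (some o'.1) then h.choose else o

theorem act_eq {w : T} {o o' : Str β e} (h : β w (rep o) = some (some o'.1)) : act w o = o' := by
  have h1 : ∃ o' : Str β e, β w (rep o) = some (some o'.1) := ⟨o', h⟩
  rw [act, dif_pos h1]
  exact Subtype.ext (Option.some.inj (Option.some.inj (h1.choose_spec.symm.trans h)))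

variable (hm : ∀ b x y, β (mul b x y) = glue b (β x) (β y))
include hm

theorem loc_turn {w : T} (hw : Loc e w) {i : Bool × Q} (h : ∀ q, β e i ≠ some (some (!i.1, q))) :
    β w i = β e i := by
  rw [← hw.mul_eq i.1, hm, glue, ev_fin (by simpa using h), two_self]

theorem loc_congr {w : T} (hw : Loc e w) {i j : Bool × Q} (h : β e i = β e j) (h1 : i.1 = j.1) :
    β w i = β w j := by
  rw [← hw.mul_eq i.1, hm, glue, glue, ← h1]
  exact ev_congr (by simpa using h)

theorem loc_out {w : T} (hw : Loc e w) {o : Str β e} {s q} (h : β w (rep o) = some (some (s, q))) :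
    ∃ o' : Str β e, o'.1 = (s, q) := by
  rw [← hw.mul_eq s, hm, glue, ev_eq] at h
  obtain ⟨⟨t, r⟩, h1, h2⟩ := h.last
  rw [two_self] at h1
  rcases h2 with rfl | ⟨h2, h3⟩
  · exact ⟨⟨(s, q), r, h1⟩, rfl⟩
  · rw [h3, rep_spec o] at h1
    exact ⟨o, Option.some.inj (Option.some.inj h1)⟩

theorem unit_act {g g' : T} (h : IsU e g g') (o : Str β e) :
    β g (rep o) = some (some (act g o).1) ∧ (act g o).1.1 = o.1.1 := by
  have h1 : ∃ q, β g (rep o) = some (some (o.1.1, q)) := by
    by_contra hc
    push Not at hc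
    have h2 : mul (rep o).1 g g' = e := by
      cases (rep o).1
      exacts [h.2.2.1, h.2.2.2]
    have h3 := (congrFun (congrArg β h2) (rep o)).trans (rep_spec o)
    rw [hm, glue, ev_fin (by simpa [rep] using hc), two_self] at h3
    exact hc _ h3
  obtain ⟨q, h1⟩ := h1
  obtain ⟨o', h2⟩ := loc_out hm h.1 h1
  rw [act_eq (h2 ▸ h1), h2]
  exact ⟨h1, rfl⟩

omit hm in
variable (β e) in
noncomputable def lab (g : T) (b : Bool) (q : Q) : Q :=
  if h : ∃ r, β e (!b, r) = some (some (b, q)) then (act g (⟨(b, q), h⟩ : Str β e)).1.2 else q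

theorem unit_mul {g g' w : T} (h : IsU e g g') (hw : Loc e w) (b : Bool) (o : Str β e) :
    β (mul b g w) (rep o) =
      (β w (rep (if o.1.1 = b then o else act g o))).map (relabel b (lab β e g b)) := by
  have k : ∀ q, β g (!b, q) = (β e (!b, q)).map (relabel b (lab β e g b)) := fun q => by
    by_cases h1 : ∃ r, β e (!b, q) = some (some (b, r))
    · obtain ⟨r, h1⟩ := h1
      let o' : Str β e := ⟨(b, r), q, h1⟩
      obtain ⟨h2, h3⟩ := unit_act hm h o'
      rw [loc_congr hm h.1 (j := rep o') (h1.trans (rep_spec o').symm) rfl, h2, h1]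
      have h4 : lab β e g b r = (act g o').1.2 := dif_pos ⟨q, h1⟩
      simp only [relabel, Option.map_some, if_true, h4]
      exact congrArg _ (congrArg _ (Prod.ext h3 rfl))
    · push Not at h1
      rw [loc_turn hm h.1 (by simpa using h1)]
      revert h1
      rcases β e (!b, q) with _ | _ | ⟨s, r'⟩
      · simp
      · simp [relabel]
      · cases b <;> cases s <;> simp [relabel]
  rw [hm, glue]
  split_ifs with h1
  · rw [sim k (Or.inl (by simp [rep, h1])), ← glue, ← hm, hw.mul_eq]
  · obtain ⟨h2, h3⟩ := unit_act hm h o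
    have h4 : o.1.1 = !b := Bool.eq_not.2 h1
    have h5 : (rep o).1 = b := by simp [rep, h4]
    have h6 : (act g o).1 = (!b, (act g o).1.2) := Prod.ext (h3.trans h4) rfl
    have h7 : (rep (act g o)).1 = b := by simp [rep, h3, h4]
    rw [h5, ev_cross (by rw [two_self, h2, h6]), sim k (Or.inl rfl)]
    conv_rhs => rw [← hw.mul_eq b, hm, glue, h7, ev_cross (by rw [two_self, rep_spec (act g o), h6])]

theorem relabel_str {g g' : T} (h : IsU e g g') (b : Bool) (o : Str β e) :
    relabel b (lab β e g b) (some o.1) = some (if o.1.1 = b then act g o else o).1 := by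
  by_cases h1 : o.1.1 = b
  · rw [if_pos h1]
    obtain ⟨⟨s, q⟩, ho⟩ := o
    obtain rfl : s = b := h1
    have h4 : lab β e g s q = (act g (⟨(s, q), ho⟩ : Str β e)).1.2 := dif_pos ho
    simp only [relabel, Option.map_some, if_true, h4]
    exact congrArg _ (Prod.ext (unit_act hm h ⟨(s, q), ho⟩).2.symm rfl)
  · rw [if_neg h1]
    simp only [relabel, Option.map_some, if_neg h1]

theorem act_mul {g g' a a' : T} (h : IsU e g g') (ha : IsU e a a') (b : Bool) (o : Str β e)
    (h1 : o.1.1 ≠ b) : act (mul b g a) o = act a (act g o) := by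
  refine act_eq ?_
  rw [unit_mul hm h ha.1, if_neg h1, (unit_act hm ha _).1, Option.map_some, relabel_str hm h,
    if_neg (by rwa [(unit_act hm ha _).2, (unit_act hm h _).2])]

omit hm in
noncomputable def sw (g g' : T) (o : Str β e) : Str β e := if o.1.1 then act g o else act g' o

theorem sw_mul {g g' a a' : T} (h : IsU e g g') (ha : IsU e a a') (o : Str β e) :
    sw (g * a) (a' * g') o = sw a a' (sw g g' o) := by
  unfold sw
  by_cases h1 : o.1.1 = true
  · rw [if_pos h1, if_pos h1, if_pos ((unit_act hm h o).2.trans h1)]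
    exact act_mul hm h ha false o (by simp [h1])
  · rw [if_neg h1, if_neg h1, if_neg (by rwa [(unit_act hm h.symm o).2])]
    exact act_mul hm h.symm ha.symm true o h1

theorem sw_inv {g g' : T} (h : IsU e g g') (o : Str β e) : sw g' g (sw g g' o) = o := by
  rw [← sw_mul hm h h.symm, h.2.2.1, sw, ite_self]
  exact act_eq (rep_spec o)

theorem sw_pow {g g' : T} (h : IsU e g g') (n : ℕ) (o : Str β e) :
    sw (g ^ (n + 1)) (g' ^ (n + 1)) o = (sw g g')^[n + 1] o := by
  induction n with
  | zero => simp
  | succ n ih =>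
    rw [pow_succ, pow_succ' g', sw_mul hm (h.pow n) h, ih, Function.iterate_succ_apply' _ (n + 1)]

theorem conj_eq {g g' w : T} (h : IsU e g g') (hw : Loc e w) (o : Str β e) :
    β (g * w * g') (rep o) = (β w (rep (sw g g' o))).map
      (relabel true (lab β e g' true) ∘ relabel false (lab β e g false)) := by
  rw [show g * w * g' = mul true g' (g * w) from rfl, unit_mul hm h.symm (h.1.mul hw),
    show g * w = mul false g w from rfl, unit_mul hm h hw, Option.map_map]
  congr 3
  unfold sw
  by_cases h1 : o.1.1 = true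
  · simp [h1]
  · simp [h1, (unit_act hm h.symm o).2]

theorem conj_str {g g' : T} (h : IsU e g g') (o : Str β e) :
    relabel true (lab β e g' true) (relabel false (lab β e g false) (some o.1)) =
      some (sw g' g o).1 := by
  rw [relabel_str hm h, relabel_str hm h.symm]
  unfold sw
  by_cases h1 : o.1.1 = true
  · simp [h1]
  · simp [h1, (unit_act hm h o).2]

theorem pairs_le [Finite Q] {x y : T} (hx : Loc e x) (hy : Loc e y) :
    (pairs (β x) (β y)).ncard ≤ {o : Str β e | β x (rep o) ≠ β y (rep o)}.ncard := by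
  refine (Set.ncard_le_ncard ?_).trans
    (Set.ncard_image_le (f := fun o => (β x (rep o), β y (rep o))))
  rintro _ ⟨h1, ⟨s, r⟩, rfl⟩
  by_cases h2 : ∃ q, β e (s, r) = some (some (!s, q))
  · obtain ⟨q, h2⟩ := h2
    let o : Str β e := ⟨(!s, q), r, by simpa using h2⟩
    have k : ∀ {w}, Loc e w → β w (s, r) = β w (rep o) := fun hw =>
      loc_congr hm hw (h2.trans (rep_spec o).symm) (by simp [rep, o])
    exact ⟨o, by simpa [← k hx, ← k hy] using h1, by simp [k hx, k hy]⟩
  · push Not at h2
    exact absurd ((loc_turn hm hx h2).trans (loc_turn hm hy h2).symm) h1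

theorem conj_sum [Fintype Q] {g g' w : T} (h : IsU e g g') (hw : Loc e w) (P : Finset ℕ)
    (n : ℕ → ℕ) (L : ℕ) (hn : ∀ j ∈ P, n j ≠ 0)
    (hL : ∀ m, 0 < m → m ≤ 2 * Fintype.card Q → (P.filter fun j => ¬m ∣ n j).card ≤ L) :
    ∑ j ∈ P, (pairs (β w) (β (g ^ n j * w * g' ^ n j))).ncard ≤
      3 * (L * (pairs (β w) (β e)).ncard) := by
  have := Fintype.ofFinite (Str β e)
  let A : Finset (Str β e) := univ.filter fun o => β w (rep o) ≠ some (some o.1)
  have hA : A.card ≤ (pairs (β w) (β e)).ncard := by
    rw [← Set.ncard_coe_finset]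
    refine Set.ncard_le_ncard_of_injOn (fun o => (β w (rep o), β e (rep o))) (fun o ho => ?_)
      fun a _ b _ hab => ?_
    · exact ⟨by simpa [A, rep_spec] using ho, _, rfl⟩
    · simp only [rep_spec, Prod.mk.injEq, Option.some.injEq] at hab
      exact Subtype.ext hab.2
  have inj : Function.Injective (sw (β := β) (e := e) g g') :=
    Function.LeftInverse.injective (sw_inv hm h)
  have cnt : ∀ f : Str β e → Str β e,
      ∑ j ∈ P, (A.filter fun o => (sw g g')^[n j] (f o) ≠ f o).card ≤ L * A.card := fun f => by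
    simp only [card_filter]
    rw [sum_comm, mul_comm, ← smul_eq_mul]
    refine sum_le_card_nsmul _ _ _ fun o _ => ?_
    rw [← card_filter]
    refine (card_le_card fun j hj => ?_).trans (hL (Function.minimalPeriod (sw g g') (f o))
      (Function.minimalPeriod_pos_of_mem_periodicPts (inj.mem_periodicPts _))
      (Function.minimalPeriod_le_card.trans ?_))
    · rw [mem_filter] at hj ⊢
      exact ⟨hj.1, fun h1 => hj.2 (Function.isPeriodicPt_iff_minimalPeriod_dvd.2 h1)⟩
    · simpa using Fintype.card_le_of_injective (fun o : Str β e => o.1) Subtype.val_injective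
  refine le_trans (sum_le_sum (g := fun j => (A.filter fun o => (sw g g')^[n j] o ≠ o).card +
    (A.filter fun o => (sw g g')^[n j] (act w o) ≠ act w o).card +
    (A.filter fun o => (sw g g')^[n j] o ≠ o).card) fun j hj => ?_) ?_
  · obtain ⟨k, hk⟩ := Nat.exists_eq_succ_of_ne_zero (hn j hj)
    rw [hk]
    have u := h.pow k
    have e1 : (sw (β := β) (e := e) g g')^[k.succ] = sw (g ^ (k + 1)) (g' ^ (k + 1)) :=
      funext fun o => (sw_pow hm h k o).symm
    rw [e1]
    generalize g ^ (k + 1) = a at *
    generalize g' ^ (k + 1) = a' at *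
    refine (pairs_le hm hw ((u.1.mul hw).mul u.2.1)).trans ?_
    rw [← card_image_of_injective (f := sw a' a) (A.filter fun o => sw a a' o ≠ o)
      (Function.LeftInverse.injective (sw_inv hm u.symm))]
    conv_rhs => enter [1, 1]; rw [card_image_of_injective _
      (Function.LeftInverse.injective (sw_inv hm u.symm))]
    refine le_trans ?_ ((card_union_le _ _).trans (Nat.add_le_add_right (card_union_le _ _) _))
    rw [← Set.ncard_coe_finset]
    refine Set.ncard_le_ncard fun o ho => ?_
    by_contra hc
    simp only [coe_union, coe_image, coe_filter, Set.mem_union, Set.mem_setOf_eq, Set.mem_image,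
      not_or, not_and, not_not, not_exists, A, mem_filter, mem_univ, true_and] at hc
    obtain ⟨⟨c1, c2⟩, c3⟩ := hc
    apply ho
    rw [conj_eq hm u hw]
    by_cases h1 : sw a a' o = o
    · rw [h1]
      rcases h2 : β w (rep o) with _ | _ | ⟨s, q⟩
      · rfl
      · rfl
      · obtain ⟨o', h3⟩ := loc_out hm hw h2
        rw [← h3] at h2 ⊢
        have h4 : sw a a' o' = o' := by
          by_cases h5 : β w (rep o) = some (some o.1)
          · rw [← act_eq h2, act_eq h5, h1]
          · simpa [act_eq h2] using c2 h5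
        rw [Option.map_some, Function.comp_apply, conj_str hm u, ← h4, sw_inv hm u, h4]
    · have h2 : β w (rep o) = some (some o.1) := by_contra fun h => h1 (c1 h)
      have h3 : β w (rep (sw a a' o)) = some (some (sw a a' o).1) := by_contra fun h =>
        c3 _ ⟨h, fun h5 => h1 (Function.LeftInverse.injective (sw_inv hm u) h5)⟩ (sw_inv hm u o)
      rw [h2, h3, Option.map_some, Function.comp_apply, conj_str hm u, sw_inv hm u]
  · rw [sum_add_distrib, sum_add_distrib]
    have h1 := cnt id
    have h2 := cnt (act w)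
    have h3 := Nat.mul_le_mul_left L hA
    simp only [id] at h1
    omega

end Vale.Agent.P343
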