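import Vale.Agent.P343.Defs
import Vale.Agent.P343.Beh

/-!
Behaviours of a deterministic two-way automaton on tape segments.
-/

open scoped Classical

namespace Vale.Agent.P343

variable {A Q : Type}

def ex (u : List (Sym A)) (s : Bool) : ℤ := cond s u.length (-1)

def en (u : List (Sym A)) (s : Bool) : ℤ := cond s (u.length - 1) 0

inductive Run (M : TwoNFA A Q) (u : List (Sym A)) : ℤ → Q → Out Q → Prop
  | exit {p s q} : p = ex u s → Run M u p q (some (s, q))
  | acc {p : ℤ} {q} {n : ℕ} : p = n → n < u.length → q ∈ M.accept → Run M u p q none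
  | step {p : ℤ} {q s q' m o} {n : ℕ} : p = n → u[n]? = some s → q ∉ M.accept →
      (q', m) ∈ M.trans q s → Run M u (p + (m : ℤ)) q' o → Run M u p q o

variable {M : TwoNFA A Q}

theorem lt_of_get {u : List (Sym A)} {n : ℕ} {s} (h : u[n]? = some s) : n < u.length :=
  (List.getElem?_eq_some_iff.1 h).1

theorem ex_ne {u : List (Sym A)} {n : ℕ} {s} (h : n < u.length) : (n : ℤ) ≠ ex u s := by
  cases s <;> simp [ex] <;> omega

theorem ex_inj {u : List (Sym A)} {s t} (h : ex u s = ex u t) : s = t := by
  cases s <;> cases t <;> simp [ex] at h ⊢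

theorem Run.unique (hM : M.Deterministic) {u p q o o'} (h : Run M u p q o)
    (h' : Run M u p q o') : o = o' := by
  induction h with
  | exit h1 =>
    cases h' with
    | exit h2 => rw [ex_inj (h1.symm.trans h2)]
    | acc h2 h3 _ => exact absurd (h2.symm.trans h1) (ex_ne h3)
    | step h2 h3 _ _ _ => exact absurd (h2.symm.trans h1) (ex_ne (lt_of_get h3))
  | acc h1 h4 h5 =>
    cases h' with
    | exit h2 => exact absurd (h1.symm.trans h2) (ex_ne h4)
    | acc _ _ _ => rfl
    | step _ _ h3 _ _ => exact absurd h5 h3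
  | step h1 h4 h5 h6 _ ih =>
    cases h' with
    | exit h2 => exact absurd (h1.symm.trans h2) (ex_ne (lt_of_get h4))
    | acc _ _ h3 => exact absurd h3 h5
    | step h2 h3 _ h7 h8 =>
      obtain rfl := Int.ofNat_inj.1 (h1.symm.trans h2)
      obtain rfl := Option.some.inj (h4.symm.trans h3)
      obtain ⟨⟩ := hM _ _ h6 h7
      exact ih h8

variable (M) in
noncomputable def beh (u : List (Sym A)) : Beh Q := fun i =>
  if h : ∃ o, Run M u (en u i.1) i.2 o then some h.choose else none

theorem beh_eq (hM : M.Deterministic) {u i o} :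
    beh M u i = some o ↔ Run M u (en u i.1) i.2 o := by
  unfold beh
  split_ifs with h
  · exact ⟨fun h1 => Option.some.inj h1 ▸ h.choose_spec,
      fun h1 => congrArg some (h.choose_spec.unique hM h1)⟩
  · exact ⟨nofun, fun h1 => absurd ⟨_, h1⟩ h⟩

theorem Run.lift {u w : List (Sym A)} {off : ℕ} (hw : ∀ n < w.length, u[off + n]? = w[n]?)
    {p q o' o} (h : Run M w p q o') (h1 : o' = none → o = none)
    (h2 : ∀ s r, o' = some (s, r) → Run M u (off + ex w s) r o) : Run M u (off + p) q o := by
  induction h with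
  | exit h3 => exact h3 ▸ h2 _ _ rfl
  | @acc p q n h3 h4 h5 =>
    rw [h1 rfl]
    exact .acc (n := off + n) (by simp [h3])
      (lt_of_get ((hw n h4).trans (List.getElem?_eq_getElem h4))) h5
  | @step p q s q' m o' n h3 h4 h5 h6 _ ih =>
    exact .step (n := off + n) (by simp [h3]) ((hw n (lt_of_get h4)).trans h4) h5 h6
      (add_assoc (off : ℤ) p m ▸ ih h1 h2)

theorem beh_append (hM : M.Deterministic) (x y : List (Sym A)) :
    beh M (x ++ y) = glue false (beh M x) (beh M y) := by
  let w : Bool → List (Sym A) := fun c => cond c y x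
  let off : Bool → ℕ := fun c => cond c x.length 0
  have hF : ∀ c, two false (beh M x) (beh M y) c = beh M (w c) := fun c => by cases c <;> rfl
  have a1 : ∀ c, ∀ n < (w c).length, (x ++ y)[off c + n]? = (w c)[n]? := fun c n hn => by
    cases c
    · simpa [w, off] using List.getElem?_append_left hn
    · simp [w, off, List.getElem?_append_right]
  have a2 : ∀ c, off c + ex (w c) c = ex (x ++ y) c := fun c => by cases c <;> simp [w, off, ex]
  have a3 : ∀ c, off c + ex (w c) (!c) = off (!c) + en (w (!c)) c := fun c => by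
    cases c <;> simp [w, off, ex, en, sub_eq_add_neg]
  have a4 : ∀ c, off c + en (w c) c = en (x ++ y) c := fun c => by
    cases c <;> simp [w, off, en, add_sub_assoc]
  unfold glue
  generalize two false (beh M x) (beh M y) = F at hF
  have fw : ∀ c i o, Ev F c i o → Run M (x ++ y) (off c + en (w c) i.1) i.2 o := by
    intro c i o h
    induction h with
    | @fin c i o h1 h2 =>
      rw [hF, beh_eq hM] at h1
      refine h1.lift (a1 c) id fun s r h => ?_
      obtain rfl : s = c := by_contra fun h3 => h2 r (by rw [h, Bool.eq_not.2 h3])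
      exact h ▸ .exit (a2 s)
    | @cross c i q o h1 _ ih =>
      rw [hF, beh_eq hM] at h1
      refine h1.lift (a1 c) nofun fun s r h => ?_
      obtain ⟨⟩ := h
      exact a3 c ▸ ih
  let G : ℤ → Q → Out Q → Bool → ℤ → Prop := fun P q o c p =>
    P = off c + p → -1 ≤ p → p ≤ (w c).length → ∃ o', Run M (w c) p q o' ∧
      ((o' = o ∧ ∀ r, o ≠ some (!c, r)) ∨ ∃ r, o' = some (!c, r) ∧ Ev F (!c) (c, r) o)
  have b1 : ∀ P q o c s, G P q o c (en (w c) s) → P = off c + en (w c) s → Ev F c (s, q) o := by
    intro P q o c s h h1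
    obtain ⟨o', h2, h3⟩ := h h1 (by cases s <;> simp only [en, cond] <;> omega)
      (by cases s <;> simp only [en, cond] <;> omega)
    have h4 : F c (s, q) = some o' := by rwa [hF, beh_eq hM]
    rcases h3 with ⟨rfl, h3⟩ | ⟨r, rfl, h3⟩
    exacts [.fin h4 h3, .cross h4 h3]
  have b2 : ∀ P q o, (∀ c p, p ≠ ex (w c) (!c) → G P q o c p) → ∀ c p, G P q o c p := by
    intro P q o h c p
    by_cases h1 : p = ex (w c) (!c)
    · intro h2 _ _
      refine ⟨_, .exit h1, Or.inr ⟨q, rfl, b1 P q o (!c) c (h _ _ ?_) (by rw [h2, h1, a3])⟩⟩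
      cases c <;> simp [ex, en]
    · exact h c p h1
  have bw : ∀ P q o, Run M (x ++ y) P q o → ∀ c p, G P q o c p := by
    intro P q o h
    have b3 : ∀ (n : ℕ) c p, n < (x ++ y).length → (n : ℤ) = off c + p → p ≠ ex (w c) (!c) →
        -1 ≤ p → p ≤ (w c).length → ∃ k : ℕ, p = k ∧ n = off c + k ∧ k < (w c).length := by
      intro n c p h1 h2 h3 h4 h5
      refine ⟨p.toNat, ?_⟩
      cases c <;> simp [w, off, ex] at h1 h2 h3 h5 ⊢ <;> omega
    induction h with
    | @exit P s q h1 =>
      refine b2 _ _ _ fun c p h2 h3 h4 h5 => ?_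
      have : s = c ∧ p = ex (w c) c := by
        cases c <;> cases s <;> simp [w, off, ex] at h1 h2 h3 h5 ⊢ <;> omega
      obtain ⟨rfl, h6⟩ := this
      exact ⟨_, .exit h6, Or.inl ⟨rfl, by simp⟩⟩
    | @acc P q n h1 h6 h7 =>
      refine b2 _ _ _ fun c p h2 h3 h4 h5 => ?_
      obtain ⟨k, k1, k2, k3⟩ := b3 n c p h6 (h1.symm.trans h3) h2 h4 h5
      exact ⟨_, .acc k1 k3 h7, Or.inl ⟨rfl, by simp⟩⟩
    | @step P q s q' m o n h1 h6 h7 h8 _ ih =>
      refine b2 _ _ _ fun c p h2 h3 h4 h5 => ?_
      obtain ⟨k, k1, k2, k3⟩ := b3 n c p (lt_of_get h6) (h1.symm.trans h3) h2 h4 h5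
      obtain ⟨o', h9, h10⟩ := ih c (p + m) (by rw [h3, add_assoc])
        (by cases m <;> simp <;> omega) (by cases m <;> simp <;> omega)
      exact ⟨o', .step k1 (by rw [← a1 c k k3, ← k2, h6]) h7 h8 h9, h10⟩
  refine funext fun i => Option.ext fun o => ?_
  rw [beh_eq hM, ev_eq, ← a4]
  exact ⟨fun h => b1 _ _ _ _ _ (bw _ _ _ h _ _) rfl, fw _ _ _⟩

theorem tape_cases {w : List A} {p : ℕ} {s} (h : (tape w)[p]? = some s) :
    (p = 0 ∧ s = .left) ∨ (∃ n a, p = n + 1 ∧ s = .letter a ∧ w.drop n = a :: w.drop (n + 1) ∧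
      n < w.length) ∨ (p = w.length + 1 ∧ s = .right) := by
  rcases p with _ | n
  · exact Or.inl ⟨rfl, (Option.some.inj h).symm⟩
  · simp only [tape, List.getElem?_cons_succ] at h
    by_cases h1 : n < w.length
    · rw [List.getElem?_append_left (by simpa using h1)] at h
      exact Or.inr (Or.inl ⟨n, w[n], rfl, by simpa [h1] using h.symm,
        List.drop_eq_getElem_cons h1, h1⟩)
    · have h2 := lt_of_get h
      obtain rfl : n = w.length := by simp at h2; omega
      exact Or.inr (Or.inr ⟨rfl, by simpa using h.symm⟩)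

theorem accepts_iff {w : List A} : M.Accepts w ↔ Run M (tape w) 0 M.start none := by
  constructor
  · rintro ⟨q, hq, p, h⟩
    have h1 : p < (tape w).length := by
      rcases h.cases_tail with h | ⟨c, _, s, m, h2, h3, h4⟩
      · obtain ⟨⟩ := h
        simp [tape]
      · have h5 := lt_of_get h2
        rcases tape_cases h2 with ⟨h6, _⟩ | ⟨n, a, h6, _, _, h7⟩ | ⟨_, rfl⟩
        · cases m <;> simp [tape] at h4 ⊢ <;> omega
        · cases m <;> simp [tape] at h4 ⊢ <;> omega
        · cases m
          · simp at h4; omega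
          · simp at h4; omega
          · exact absurd h3 (M.no_right _ _)
    have key : ∀ c, Relation.ReflTransGen (M.Step w) c (q, p) → Run M (tape w) c.2 c.1 none := by
      intro c h
      induction h using Relation.ReflTransGen.head_induction_on with
      | refl => exact .acc rfl h1 hq
      | @head c c' h2 _ ih =>
        obtain ⟨s, m, h2, h3, h4⟩ := h2
        by_cases h5 : c.1 ∈ M.accept
        · exact .acc rfl (lt_of_get h2) h5
        · exact .step rfl h2 h5 h3 (h4 ▸ ih)
    exact key _ h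
  · have key : ∀ P q o, Run M (tape w) P q o → o = none → ∃ n : ℕ, P = n ∧
        ∃ q' ∈ M.accept, ∃ p, Relation.ReflTransGen (M.Step w) (q, n) (q', p) := by
      intro P q o h
      induction h with
      | exit => nofun
      | @acc P q n h1 _ h2 => exact fun _ => ⟨n, h1, q, h2, n, .refl⟩
      | @step P q s q' m o n h1 h2 _ h3 _ ih =>
        intro h
        obtain ⟨k, k1, r, k2, p, k3⟩ := ih h
        exact ⟨n, h1, r, k2, p, .head ⟨s, m, h2, h3, by rw [← k1, h1]⟩ k3⟩
    intro h
    obtain ⟨n, h1, h2⟩ := key _ _ _ h rfl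
    obtain rfl : n = 0 := by omega
    exact h2

end Vale.Agent.P343
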