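import Vale.Agent.P343.Bound
import Vale.Agent.P343.Mach

/-!
One-way liveness needs superpolynomially many states in two-way deterministic automata.
-/

open scoped Classical

namespace Vale.Agent.P343

variable {X Q : Type}

/-- The product of a word of relations. -/
def prodRel : List (X → X → Prop) → X → X → Prop
  | [], a, c => c = a
  | R :: w, a, c => ∃ b, R a b ∧ prodRel w b c

theorem prodRel_append (x y : List (X → X → Prop)) (a c : X) :
    prodRel (x ++ y) a c ↔ ∃ b, prodRel x a b ∧ prodRel y b c := by
  induction x generalizing a with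
  | nil => simp [prodRel]
  | cons R x ih =>
    simp only [List.cons_append, prodRel, ih]
    grind

/-- The one-way automaton for liveness. -/
def live (X : Type) : TwoNFA (X → X → Prop) (Option (Option X)) where
  start := none
  accept := {some none}
  trans q s := match q, s with
    | none, .left => {t | ∃ x, t = (some (some x), 1)}
    | some (some x), .letter R => {t | ∃ y, R x y ∧ t = (some (some y), 1)}
    | some (some _), .right => {(some none, 0)}
    | _, _ => ∅
  no_left q q' := by rcases q with _ | _ | _ <;> simp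
  no_right q q' := by rcases q with _ | _ | _ <;> simp

theorem live_oneWay : (live X).OneWay := by
  rintro (_ | _ | _) (_ | _ | _) q' <;> simp [live]

theorem live_accepts (w : List (X → X → Prop)) : (live X).Accepts w ↔ ∃ a c, prodRel w a c := by
  constructor
  · rintro ⟨q, hq, p, h⟩
    obtain rfl : q = some none := hq
    have key : ∀ c, Relation.ReflTransGen ((live X).Step w) c (some none, p) →
        (c.1 = none → ∃ a c, prodRel w a c) ∧
        ∀ x n, c = (some (some x), n + 1) → ∃ c, prodRel (w.drop n) x c := by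
      intro c h
      induction h using Relation.ReflTransGen.head_induction_on with
      | refl => simp
      | @head c c' h2 _ ih =>
        obtain ⟨s, m, h2, h3, h4⟩ := h2
        obtain ⟨q, p⟩ := c
        obtain ⟨q', p'⟩ := c'
        rcases tape_cases h2 with ⟨rfl, rfl⟩ | ⟨n, a, rfl, rfl, h5, -⟩ | ⟨rfl, rfl⟩
        · refine ⟨?_, by simp⟩
          rintro rfl
          obtain ⟨x, ⟨⟩⟩ := h3
          exact ⟨x, ih.2 x 0 (by simpa using h4)⟩
        · refine ⟨by rintro rfl; exact h3.elim, ?_⟩
          rintro x _ ⟨⟩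
          obtain ⟨y, h6, ⟨⟩⟩ := h3
          obtain ⟨c, hc⟩ := ih.2 y (n + 1) (by simp at h4 ⊢; omega)
          exact ⟨c, h5 ▸ ⟨y, h6, hc⟩⟩
        · refine ⟨by rintro rfl; exact h3.elim, ?_⟩
          rintro x _ ⟨⟩
          exact ⟨x, by simp [prodRel]⟩
    exact (key _ h).1 rfl
  · rintro ⟨a, c, h⟩
    have key : ∀ w2 w1 x, w = w1 ++ w2 → prodRel w2 x c → Relation.ReflTransGen ((live X).Step w)
        (some (some x), w1.length + 1) (some none, w.length + 1) := by
      intro w2
      induction w2 with
      | nil =>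
        rintro w1 x rfl _
        exact .single ⟨.right, 0, by simp [tape], rfl, by simp⟩
      | cons R w2 ih =>
        rintro w1 x h1 ⟨y, h2, h3⟩
        exact .head ⟨.letter R, 1, by simp [tape, h1], ⟨y, h2, rfl⟩, by simp⟩
          (ih (w1 ++ [R]) y (by simp [h1]) h3)
    exact ⟨_, rfl, _, .head ⟨.left, 1, rfl, ⟨a, rfl⟩, rfl⟩ (key w [] a rfl h)⟩

theorem live_bound (L : ℕ) : ∃ C, ∀ z, 0 < z → ∀ (Q X : Type) [Fintype Q] [Fintype X]
    (B : TwoNFA (X → X → Prop) Q), B.Deterministic → (∀ w, B.Accepts w ↔ (live X).Accepts w) →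
    C * z ≤ Fintype.card X → 2 * Fintype.card Q < z ^ (L + 1) →
    2 ^ z ≤ (2 * Fintype.card Q + 2) ^ 2 := by
  obtain ⟨C, hC⟩ := alg_bound L
  refine ⟨C, fun z hz Q X _ _ B hB hw => ?_⟩
  let b : FreeMonoid (X → X → Prop) → Beh Q := fun a => beh B (a.toList.map .letter)
  have hb : ∀ x y, b (x * y) = glue false (b x) (b y) := fun x y => by
    simp only [b, FreeMonoid.toList_mul, List.map_append, beh_append hB]
  let c : Con (FreeMonoid (X → X → Prop)) :=
    { r := fun x y => b x = b y
      iseqv := ⟨fun _ => rfl, Eq.symm, Eq.trans⟩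
      mul' := fun h1 h2 => by rw [hb, hb, h1, h2] }
  have hr : ∀ x y, b x = b y → prodRel x.toList = prodRel y.toList := by
    have k : ∀ (x : FreeMonoid (X → X → Prop)) i j, prodRel x.toList i j ↔
        glue false (beh B [.left, .letter fun a c => a = i ∧ c = i]) (glue false (b x)
          (beh B [.letter fun a c => a = j ∧ c = j, .right])) (false, B.start) = some none := by
      intro x i j
      rw [← beh_append hB, ← beh_append hB, beh_eq hB]
      have h1 := hw ((fun a c => a = i ∧ c = i) :: (x.toList ++ [fun a c => a = j ∧ c = j]))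
      rw [live_accepts, accepts_iff] at h1
      simp only [prodRel, prodRel_append] at h1
      refine Iff.trans (by grind) (h1.symm.trans ?_)
      simp [tape, en]
    intro x y h
    ext i j
    rw [k, k, h]
  let β : c.Quotient → Beh Q := fun x => Con.liftOn x b fun _ _ h => h
  let ψ : c.Quotient → X → X → Prop := fun x => Con.liftOn x (fun a => prodRel a.toList) hr
  have : Finite c.Quotient := Finite.of_injective β fun x y => by
    induction x using Con.induction_on
    induction y using Con.induction_on
    exact fun h => c.eq.2 h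
  refine hC z hz Q c.Quotient X β ψ (fun s x y => ?_) (fun x y => ?_)
    (fun R => ⟨(FreeMonoid.of R : FreeMonoid _), ?_⟩) fun x y => ?_
  · induction x using Con.induction_on
    induction y using Con.induction_on
    cases s
    · exact hb _ _
    · refine (hb _ _).trans ?_
      unfold glue
      rw [← two_swap true]
      rfl
  · induction x using Con.induction_on
    induction y using Con.induction_on
    exact prodRel_append _ _
  · ext a c
    change prodRel [R] a c ↔ _
    simp [prodRel]
  · induction x using Con.induction_on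
    induction y using Con.induction_on
    exact hr _ _

theorem eval_le (p : Polynomial ℕ) : ∃ A, ∀ n, 0 < n → p.eval n ≤ A * n ^ p.natDegree := by
  refine ⟨∑ i ∈ Finset.range (p.natDegree + 1), p.coeff i, fun n hn => ?_⟩
  rw [Polynomial.eval_eq_sum_range, Finset.sum_mul]
  exact Finset.sum_le_sum fun i hi => Nat.mul_le_mul_left _
    (Nat.pow_le_pow_right hn (Nat.lt_succ_iff.1 (Finset.mem_range.1 hi)))

theorem no_poly : ¬∃ p : Polynomial ℕ, ∀ (A Q : Type) [Fintype A] [Fintype Q] (M : TwoNFA A Q),
    M.OneWay → ∃ (Q' : Type) (_ : Fintype Q') (B : TwoNFA A Q'), B.Deterministic ∧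
      Fintype.card Q' ≤ p.eval (Fintype.card Q) ∧ ∀ w, B.Accepts w ↔ M.Accepts w := by
  rintro ⟨p, hp⟩
  obtain ⟨A, hA⟩ := eval_le p
  generalize p.natDegree = d at hA
  obtain ⟨C, hC⟩ := live_bound d
  have h1 := (tendsto_pow_const_div_const_pow_of_one_lt (2 * d + 2)
    (one_lt_two (α := ℝ))).eventually (gt_mem_nhds (show (0 : ℝ) < 1 / 4 by norm_num))
  obtain ⟨z, h2, h3⟩ := (h1.and (Filter.eventually_gt_atTop (2 * (A * (C + 2) ^ d)))).exists
  have hz : 0 < z := by omega
  have h4 : 4 * z ^ (2 * d + 2) < 2 ^ z := by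
    rw [div_lt_div_iff₀ (by positivity) (by norm_num)] at h2
    exact_mod_cast (by linarith : (4 : ℝ) * z ^ (2 * d + 2) < 2 ^ z)
  have := Fintype.ofFinite (Fin (C * z) → Fin (C * z) → Prop)
  obtain ⟨Q', _, B, b1, b2, b3⟩ := hp _ _ (live (Fin (C * z))) live_oneWay
  have h5 : Fintype.card Q' ≤ A * (C + 2) ^ d * z ^ d := by
    refine b2.trans ((hA _ Fintype.card_pos).trans ?_)
    rw [mul_assoc, ← mul_pow]
    refine Nat.mul_le_mul_left _ (Nat.pow_le_pow_left ?_ _)
    simp only [Fintype.card_option, Fintype.card_fin]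
    nlinarith
  have h6 : 2 * Fintype.card Q' < z ^ (d + 1) := by
    have : 0 < z ^ d := by positivity
    rw [pow_succ]
    nlinarith
  have h7 := hC z hz Q' _ B b1 b3 (by simp) h6
  have h8 : (2 * Fintype.card Q' + 2) ^ 2 ≤ (2 * z ^ (d + 1)) ^ 2 :=
    Nat.pow_le_pow_left (by omega) _
  have h9 : (2 * z ^ (d + 1)) ^ 2 = 4 * z ^ (2 * d + 2) := by ring
  omega

end Vale.Agent.P343
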